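import Vale.Agent.P092NN.Nt0
import Vale.Agent.P092GK.Gauge
import Vale.Agent.P092GK.PanD
import Mathlib.Analysis.Normed.Group.Ultra

/-!
P092 (helper60): groups of rank one over non archimedean fields do not have property (T).
-/

set_option linter.all false

namespace Vale.Agent.P092NN

open Filter Topology Set
open Vale.Agent.P092.UN (KazT)
open Vale.Agent.P092GK Vale.Agent.P092GK.FlD

variable {k : Type} [NontriviallyNormedField k] {G : Type} [Group G] {F : FlD k G 1}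

theorem ultra [IsUltrametricDist k] {α α' β β' : k} {c : ℝ} (h : c ≤ max ‖α‖ ‖α'‖)
    (h1 : ‖β - α‖ < c) (h2 : ‖β' - α'‖ < c) : ‖β‖ ≤ ‖β'‖ ↔ ‖α‖ ≤ ‖α'‖ := by
  have a1 : ∀ x y : k, ‖y‖ ≤ max ‖x‖ ‖y - x‖ := fun x y => by
    simpa using IsUltrametricDist.norm_add_le_max x (y - x)
  have a2 : ∀ x y : k, ‖y - x‖ < ‖x‖ → ‖y‖ = ‖x‖ := fun x y e =>
    le_antisymm ((a1 x y).trans (max_le le_rfl e.le)) ((le_max_iff.1 (a1 y x)).resolve_right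
      (by rw [norm_sub_rev]; exact not_le.2 e))
  rcases le_or_gt ‖α‖ ‖α'‖ with e | e
  · rw [max_eq_right e] at h
    refine iff_of_true ?_ e
    rw [a2 α' β' (h2.trans_le h)]
    exact (a1 α β).trans (max_le e (h1.le.trans h))
  · rw [max_eq_left e.le] at h
    refine iff_of_false (not_le.2 ?_) (not_le.2 e)
    rw [a2 α β (h1.trans_le h)]
    exact (a1 α' β').trans_lt (max_lt e (h2.trans_le h))

/-- a closed and open subset of the flag space -/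
def Hf (F : FlD k G 1) : Set G := {g | ‖F.Δ 0 g‖ ≤ ‖F.Δ 0 (F.n₀ * g)‖}

/-- the majority of three points -/
def Mj (A : Set G) (p q r g : G) : Prop :=
  (g * p ∈ A ∧ g * q ∈ A) ∨ (g * p ∈ A ∧ g * r ∈ A) ∨ (g * q ∈ A ∧ g * r ∈ A)

theorem maj {a b c d : Prop} (e1 : (a ↔ d) ∨ (b ↔ d)) (e2 : (a ↔ d) ∨ (c ↔ d))
    (e3 : (b ↔ d) ∨ (c ↔ d)) : (a ∧ b) ∨ (a ∧ c) ∨ (b ∧ c) ↔ d := by
  tauto

variable [TopologicalSpace G] [IsTopologicalGroup G]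

theorem Δ_n₀ (h : Fl F) {n : G} (hn : n = F.n₀ ∨ n = F.n₀⁻¹) : F.Δ 0 n = 0 := by
  have e0 : F.ι 0 = 0 := Subsingleton.elim _ _
  have key : ∀ z ∈ F.Z, ∀ z' ∈ F.Z, z * n = n * z' → F.ℓ z 0 ≠ F.ℓ z' 0 → F.Δ 0 n = 0 := by
    intro z hz z' hz' e hne
    by_contra k
    have hΩ : n ∈ F.Ω := fun j => by rwa [Subsingleton.elim j 0]
    have := congrFun ((h.ℓ_zl hz hΩ).symm.trans ((congrArg _ e).trans (h.ℓ_zr hz' hΩ))) 0
    simp only [Pi.add_apply] at this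
    exact hne (by linarith)
  have h1 := h.n₀ℓ _ (h.bZ 0) 0
  have h2 : F.ℓ (F.b 0) 0 = F.β := by rw [h.bℓ, Pi.single_eq_same]
  rw [e0] at h1
  rcases hn with rfl | rfl
  · exact key _ ((h.n₀Z _).1 (h.bZ 0)) _ (h.bZ 0) (by group) (by linarith [h.β_pos])
  · exact key _ (h.bZ 0) _ ((h.n₀Z _).1 (h.bZ 0)) (by group) (by linarith [h.β_pos])

theorem Hf_P (h : Fl F) {p : G} (hp : p ∈ F.P Finset.univ) (g : G) : g * p ∈ Hf F ↔ g ∈ Hf F := by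
  simp only [Hf, mem_setOf_eq, ← mul_assoc, h.Δ_P hp (Finset.mem_univ _), norm_mul]
  exact mul_le_mul_iff_left₀ (norm_pos_iff.2 (h.Δ_ne_P hp (Finset.mem_univ _)))

theorem max_low (h : Fl F) {C : Set G} (hC : IsCompact C) {f g : G → G} (hf : Continuous f)
    (hg : Continuous g) (h0 : ∀ y, F.Δ 0 (f y) = 0 → F.Δ 0 (g y) ≠ 0) :
    ∃ c : ℝ, 0 < c ∧ ∀ y ∈ C, c ≤ max ‖F.Δ 0 (f y)‖ ‖F.Δ 0 (g y)‖ := by
  obtain ⟨c, hc, -, hc'⟩ := cpt_low hC (fun (_ : Unit) y => max ‖F.Δ 0 (f y)‖ ‖F.Δ 0 (g y)‖)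
    (fun _ => (((h.contΔ 0).comp hf).norm.max ((h.contΔ 0).comp hg).norm).continuousOn)
    fun _ y _ => by
      by_contra k
      rw [not_lt, max_le_iff, norm_le_zero_iff, norm_le_zero_iff] at k
      exact h0 y k.1 k.2
  exact ⟨c, hc, hc' ()⟩

theorem max_n₀ (h : Fl F) (bru : ∀ g, F.Δ 0 g = 0 → F.n₀ * g ∈ F.P Finset.univ) {C : Set G}
    (hC : IsCompact C) : ∃ c : ℝ, 0 < c ∧ ∀ y ∈ C, c ≤ max ‖F.Δ 0 y‖ ‖F.Δ 0 (F.n₀ * y)‖ :=
  max_low h hC continuous_id (continuous_const_mul _) fun y k =>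
    h.Δ_ne_P (bru y k) (Finset.mem_univ _)

theorem max_pq (h : Fl F) (bru : ∀ g, F.Δ 0 g = 0 → F.n₀ * g ∈ F.P Finset.univ) {C : Set G}
    (hC : IsCompact C) {p q : G} (hpq : p⁻¹ * q ∉ F.P Finset.univ) :
    ∃ c : ℝ, 0 < c ∧ ∀ y ∈ C, c ≤ ‖F.Δ 0 (y * p)‖ ∨ c ≤ ‖F.Δ 0 (y * q)‖ := by
  obtain ⟨c, hc, hc'⟩ := max_low h hC (continuous_mul_const p) (continuous_mul_const q)
    fun y k k' => hpq (by
      have := (F.P _).mul_mem ((F.P _).inv_mem (bru _ k)) (bru _ k')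
      rwa [show (F.n₀ * (y * p))⁻¹ * (F.n₀ * (y * q)) = p⁻¹ * q by group] at this)
  exact ⟨c, hc, fun y hy => le_max_iff.1 (hc' y hy)⟩

variable [IsUltrametricDist k]

/-- the stabiliser is open -/
theorem Hf_near (h : Fl F) (bru : ∀ g, F.Δ 0 g = 0 → F.n₀ * g ∈ F.P Finset.univ) :
    ∀ᶠ u in 𝓝 (1 : G), ∀ g, u * g ∈ Hf F ↔ g ∈ Hf F := by
  obtain ⟨C, hC, hg⟩ := h.iwa
  obtain ⟨c, hc, hc'⟩ := max_n₀ h bru hC
  have key : ∀ s : G, ∀ᶠ u in 𝓝 (1 : G), ∀ x ∈ C, ‖F.Δ 0 (s * (u * x)) - F.Δ 0 (s * x)‖ < c := by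
    intro s
    refine hC.eventually_forall_of_forall_eventually fun x _ => ?_
    have h1 : Continuous fun q : G × G => ‖F.Δ 0 (s * (q.1 * q.2)) - F.Δ 0 (s * q.2)‖ :=
      (((h.contΔ 0).comp (by fun_prop)).sub ((h.contΔ 0).comp (by fun_prop))).norm
    exact h1.continuousAt.eventually (gt_mem_nhds (by simpa using hc))
  filter_upwards [key 1, key F.n₀] with u h1 h2 g
  obtain ⟨x, hx, z, hz, w, hw, rfl⟩ := hg g
  rw [← mul_assoc, ← mul_assoc, Hf_P h (h.up_mem_P hw _), Hf_P h (h.z_mem_P hz _),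
    Hf_P h (h.up_mem_P hw _), Hf_P h (h.z_mem_P hz _)]
  exact ultra (hc' x hx) (by simpa using h1 x hx) (h2 x hx)

/-- contraction -/
theorem Hf_dyn (h : Fl F) (bru : ∀ g, F.Δ 0 g = 0 → F.n₀ * g ∈ F.P Finset.univ) {C L : Set G}
    (hC : IsCompact C) (hL : IsCompact L) {c : ℝ} (hc : 0 < c) : ∃ T : ℝ, ∀ z, F.Dom z →
      T ≤ F.ℓ z 0 → ∀ x ∈ C, ∀ y ∈ L, c ≤ ‖F.Δ 0 y‖ → (x * z * y ∈ Hf F ↔ x ∈ Hf F) := by
  obtain ⟨d, hd, hd'⟩ := max_n₀ h bru hC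
  obtain ⟨B, hB, hB'⟩ := h.rank_one
  obtain ⟨R, -, hR⟩ := h.len_cpt (hC.union (hC.image (continuous_const_mul F.n₀)))
  obtain ⟨R', -, hR'⟩ := h.len_cpt hL
  obtain ⟨T, -, hT⟩ := Fl.exp_small (‖F.φ 0‖ * ‖F.v 0‖ * B * Real.exp (R + R'))
    (half_pos (mul_pos hc hd))
  refine ⟨T, fun z hz hT' x hx y hy hy' => ?_⟩
  have hz0 := norm_pos_iff.2 (h.Δ_ne hz.1 0)
  have key : ∀ x, F.len x ≤ R →
      ‖F.Δ 0 (x * z * y) - F.Δ 0 z * F.Δ 0 y * F.Δ 0 x‖ < ‖F.Δ 0 z‖ * ‖F.Δ 0 y‖ * d := by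
    intro x hx
    have h1 : F.Δ 0 (x * z * y) - F.Δ 0 z * F.Δ 0 y * F.Δ 0 x = F.φ 0 ((F.V 0 (x * z * y) -
        F.Δ 0 z • ((F.φ 0).comp (F.V 0 y)).smulRight (F.V 0 x (F.v 0))) (F.v 0)) := by
      simp only [ContinuousLinearMap.sub_apply, ContinuousLinearMap.smul_apply,
        ContinuousLinearMap.smulRight_apply, ContinuousLinearMap.comp_apply, map_sub, map_smul,
        smul_eq_mul, FlD.Δ, mul_assoc]
    have h2 : Real.exp (-F.ℓ z 0 + (F.len x + F.len y)) ≤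
        Real.exp (R + R') * Real.exp (-F.ℓ z 0) := by
      rw [← Real.exp_add, Real.exp_le_exp]
      linarith [hR' y hy]
    rw [h1]
    calc _ ≤ ‖F.φ 0‖ * (B * (‖F.Δ 0 z‖ * (Real.exp (R + R') * Real.exp (-F.ℓ z 0))) * ‖F.v 0‖) :=
          ((F.φ 0).le_opNorm _).trans (mul_le_mul_of_nonneg_left
            ((ContinuousLinearMap.le_opNorm _ _).trans (mul_le_mul_of_nonneg_right
              ((hB' z hz x y 0).trans (by gcongr)) (norm_nonneg _))) (norm_nonneg _))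
      _ = ‖F.Δ 0 z‖ * (‖F.φ 0‖ * ‖F.v 0‖ * B * Real.exp (R + R') * Real.exp (-F.ℓ z 0)) := by ring
      _ ≤ ‖F.Δ 0 z‖ * (c * d / 2) := mul_le_mul_of_nonneg_left (hT _ hT') hz0.le
      _ < ‖F.Δ 0 z‖ * (‖F.Δ 0 y‖ * d) := mul_lt_mul_of_pos_left (by nlinarith [mul_pos hc hd]) hz0
      _ = _ := by ring
  have h0 : 0 < ‖F.Δ 0 z‖ * ‖F.Δ 0 y‖ := mul_pos hz0 (hc.trans_le hy')
  have h1 := key (F.n₀ * x) (hR _ (.inr ⟨x, hx, rfl⟩))
  rw [mul_assoc F.n₀, mul_assoc F.n₀] at h1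
  refine (ultra ?_ (key x (hR x (.inl hx))) h1).trans ?_
  · rw [norm_mul, norm_mul, norm_mul, norm_mul, ← mul_max_of_nonneg _ _ h0.le]
    exact mul_le_mul_of_nonneg_left (hd' x hx) h0.le
  · rw [norm_mul, norm_mul, norm_mul, norm_mul]
    exact mul_le_mul_iff_right₀ h0

theorem Mj_dyn (h : Fl F) (bru : ∀ g, F.Δ 0 g = 0 → F.n₀ * g ∈ F.P Finset.univ) {C L : Set G}
    (hC : IsCompact C) (hL : IsCompact L) {p q r : G} (h1 : p⁻¹ * q ∉ F.P Finset.univ)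
    (h2 : p⁻¹ * r ∉ F.P Finset.univ) (h3 : q⁻¹ * r ∉ F.P Finset.univ) : ∃ T : ℝ, ∀ z, F.Dom z →
      T ≤ F.ℓ z 0 → ∀ x ∈ C, ∀ y ∈ L, (Mj (Hf F) p q r (x * z * y) ↔ x ∈ Hf F) := by
  obtain ⟨c₁, a1, b1⟩ := max_pq h bru hL h1
  obtain ⟨c₂, a2, b2⟩ := max_pq h bru hL h2
  obtain ⟨c₃, a3, b3⟩ := max_pq h bru hL h3
  obtain ⟨T, hT⟩ := Hf_dyn h bru hC (((hL.image (continuous_mul_const p)).union
    (hL.image (continuous_mul_const q))).union (hL.image (continuous_mul_const r)))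
    (lt_min a1 (lt_min a2 a3))
  refine ⟨T, fun z hz hT' x hx y hy => ?_⟩
  have d1 := hT z hz hT' x hx _ (.inl (.inl ⟨y, hy, rfl⟩))
  have d2 := hT z hz hT' x hx _ (.inl (.inr ⟨y, hy, rfl⟩))
  have d3 := hT z hz hT' x hx _ (.inr ⟨y, hy, rfl⟩)
  have e1 := (b1 y hy).imp (fun k => d1 (min_le_of_left_le k)) fun k => d2 (min_le_of_left_le k)
  have e2 := (b2 y hy).imp (fun k => d1 (min_le_of_right_le (min_le_of_left_le k)))
    fun k => d3 (min_le_of_right_le (min_le_of_left_le k))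
  have e3 := (b3 y hy).imp (fun k => d2 (min_le_of_right_le (min_le_of_right_le k)))
    fun k => d3 (min_le_of_right_le (min_le_of_right_le k))
  simp only [Mj, mul_assoc (x * z) y]
  exact maj e1 e2 e3

/-- **NT-NA** from the Bruhat decomposition in rank one -/
theorem not_kazT_of [T2Space G] [LocallyCompactSpace G] [ProperSpace k] (h : Fl F)
    (hs : ∃ s, ∀ g, g ∉ F.Ω → s * g ∈ F.P Finset.univ) : ¬ KazT G := by
  have n1 := Δ_n₀ h (.inl rfl)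
  have n2 := Δ_n₀ h (.inr rfl)
  have bru : ∀ g, F.Δ 0 g = 0 → F.n₀ * g ∈ F.P Finset.univ := fun g k => by
    obtain ⟨s, hs⟩ := hs
    have := (F.P _).mul_mem ((F.P _).inv_mem (hs _ fun k => k 0 n2)) (hs g fun k' => k' 0 k)
    rwa [show (s * F.n₀⁻¹)⁻¹ * (s * g) = F.n₀ * g by group] at this
  have h1 : (1 : G)⁻¹ * F.n₀⁻¹ ∉ F.P Finset.univ := fun k =>
    h.Δ_ne_P k (Finset.mem_univ 0) (by rwa [inv_one, one_mul])
  obtain ⟨r, hr, h2⟩ : ∃ r ∈ F.Ω, (1 : G)⁻¹ * r ∉ F.P Finset.univ := by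
    by_contra k
    push Not at k
    exact h1 ((h.isClosed_P _).closure_subset_iff.2 (fun g hg => by simpa using k g hg)
      (h.dense _))
  have h3 : (F.n₀⁻¹)⁻¹ * r ∉ F.P Finset.univ := fun k => hr 0 (by
    rw [← mul_inv_cancel_left F.n₀⁻¹ r, h.Δ_P k (Finset.mem_univ _), n2, zero_mul])
  let K : Subgroup G :=
    { carrier := {u | ∀ g, u * g ∈ Hf F ↔ g ∈ Hf F}
      one_mem' := fun g => by rw [one_mul]
      mul_mem' := fun {u v} hu hv g => by rw [mul_assoc, hu, hv]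
      inv_mem' := fun {u} hu g => by rw [← hu, mul_inv_cancel_left] }
  have hK : (K : Set G) ∈ 𝓝 (1 : G) := Hf_near h bru
  obtain ⟨T, hT⟩ := Mj_dyn h bru ((finite_singleton F.n₀⁻¹).insert 1).isCompact
    ((finite_singleton F.n₀).insert 1).isCompact h1 h2 h3
  obtain ⟨n₀, hn⟩ := exists_nat_ge (T / F.β)
  have b1 : ∀ n : ℕ, F.Dom (F.b 0 ^ n) ∧ F.ℓ (F.b 0 ^ n) 0 = n * F.β := fun n => by
    have : F.ℓ (F.b 0 ^ n) 0 = n * F.β := by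
      rw [h.ℓ_pow (h.bZ 0), h.bℓ, Pi.smul_apply, Pi.single_eq_same, smul_eq_mul]
    refine ⟨⟨F.Z.pow_mem (h.bZ 0) n, fun i => ?_⟩, this⟩
    rw [Subsingleton.elim i 0, this]
    exact mul_nonneg n.cast_nonneg h.β_pos.le
  have b2 : ∀ n : ℕ, n₀ ≤ n → T ≤ n * F.β := fun n k =>
    (div_le_iff₀ h.β_pos).1 (hn.trans (Nat.cast_le.2 k))
  refine fw K (K.isOpen_of_mem_nhds hK) {g | Mj (Hf F) 1 F.n₀⁻¹ r g⁻¹} (fun g u hu => ?_)
    (fun g => ?_) (fun Q hQ => ?_) (b := F.b 0) (n₀ := n₀) (fun n k => ?_) fun n k => ?_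
  · simp only [mem_setOf_eq, Mj, mul_inv_rev, mul_assoc, K.inv_mem hu _]
  · have : Tendsto (fun x : G => g⁻¹ * x⁻¹ * g) (𝓝 1) (𝓝 1) := by
      have : Continuous fun x : G => g⁻¹ * x⁻¹ * g := by fun_prop
      simpa using this.tendsto 1
    filter_upwards [this hK] with x hx
    have e : (x * g)⁻¹ = g⁻¹ * x⁻¹ * g * g⁻¹ := by group
    simp only [mem_setOf_eq, Mj, e, mul_assoc _ g⁻¹, hx _]
  · obtain ⟨C, hC, hg⟩ := h.kak
    obtain ⟨T, hT⟩ := Mj_dyn h bru hC (hC.union (hC.mul hQ.inv)) h1 h2 h3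
    refine ⟨_, ((hC.mul (h.zprop T)).mul hC).inv, fun x hx g k => ?_⟩
    obtain ⟨u, hu, t, ht, v, hv, e⟩ := hg g⁻¹
    have h4 : T ≤ F.ℓ (F.a t) 0 := not_lt.1 fun k' => k (by
      rw [Set.mem_inv, e]
      refine mul_mem_mul (mul_mem_mul hu ⟨h.a_mem t, fun i => ?_⟩) hv
      rw [Subsingleton.elim i 0, abs_of_nonneg ((h.a_dom ht).2 0)]
      exact k'.le)
    rw [mem_setOf_eq, mem_setOf_eq, mul_inv_rev, e, mul_assoc,
      hT _ (h.a_dom ht) h4 u hu _ (.inr (mul_mem_mul hv (inv_mem_inv.2 hx))),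
      hT _ (h.a_dom ht) h4 u hu _ (.inl hv)]
  · have h4 := h.ℓ_n₀ (b1 n).1.1 0
    rw [Subsingleton.elim (F.ι 0) 0, (b1 n).2] at h4
    have h5 := (hT _ (h.n₀_dom (b1 n).1) (h4 ▸ b2 n k) F.n₀⁻¹ (.inr rfl) F.n₀ (.inr rfl)).2
      (by simp [Hf, n2])
    rwa [show F.n₀⁻¹ * (F.n₀ * (F.b 0 ^ n)⁻¹ * F.n₀⁻¹) * F.n₀ = (F.b 0 ^ n)⁻¹ by group] at h5
  · intro k'
    have h5 := (hT _ (b1 n).1 ((b1 n).2 ▸ b2 n k) 1 (.inl rfl) 1 (.inl rfl)).1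
      (by simpa using k')
    simp only [Hf, mem_setOf_eq, mul_one, n1, h.Δ_one, norm_one, norm_zero] at h5
    exact absurd h5 (by norm_num)

/-- **NT-NA** -/
theorem not_kazT [T2Space G] [LocallyCompactSpace G] [ProperSpace k] (h : Fl F) {s : Fin 1 → G}
    {N : ℕ} {τ : ℕ → Fin 1} {w : ℕ → G} (hp : Pan F s N τ w) : ¬ KazT G :=
  not_kazT_of h ⟨s 0, fun g k => (hp.bru 0 _ (mem_L.2 fun j hj =>
    absurd (Subsingleton.elim j 0) (Finset.ne_of_mem_erase hj))).resolve_right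
      (by rwa [inv_mul_cancel_left])⟩

end Vale.Agent.P092NN
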