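import Vale.Agent.P092LG.Kol
import Mathlib.Analysis.InnerProductSpace.Projection.Basic
import Mathlib.Topology.Algebra.Group.Quotient

/-!
P092 (helper60): positive definite functions on groups with property (T); commensurated sets.
-/

set_option linter.all false

namespace Vale.Agent.P092NN

open Filter Topology Set
open scoped InnerProductSpace ComplexConjugate
open Vale.Agent.P092.UN (KazT)
open Vale.Agent.P092.H933 (URep)
open Vale.Agent.P092LG

variable {G : Type} [Group G] [TopologicalSpace G]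

/-- Almost invariant vectors are uniformly almost invariant. -/
theorem kaz_vec [IsTopologicalGroup G] (h : KazT G) : ∃ (Q : Set G) (κ : ℝ), IsCompact Q ∧ 0 < κ ∧
    ∀ (H : Type) [NormedAddCommGroup H] [InnerProductSpace ℂ H] [CompleteSpace H]
      (σ : G →* (H →L[ℂ] H)), URep σ → ∀ (v : H) (δ : ℝ), (∀ g ∈ Q, ‖σ g v - v‖ ≤ δ) →
        ∀ g, κ * ‖σ g v - v‖ ≤ 2 * δ := by
  obtain ⟨Q, κ, hQ, hκ, h⟩ := h
  refine ⟨Q, κ, hQ, hκ, fun H _ _ _ σ hσ v δ hv g => ?_⟩
  let K : Submodule ℂ H := ⨅ g : G, LinearMap.ker (σ g - 1).toLinearMap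
  have hK : ∀ w, w ∈ K ↔ ∀ g, σ g w = w := fun w => by
    simp only [K, Submodule.mem_iInf, LinearMap.mem_ker, ContinuousLinearMap.coe_coe,
      ContinuousLinearMap.sub_apply, ContinuousLinearMap.one_apply, sub_eq_zero]
  haveI : CompleteSpace K := (show IsClosed (K : Set H) by
    rw [show (K : Set H) = ⋂ g, {w | σ g w = w} from Set.ext fun w => by
      rw [SetLike.mem_coe, hK, mem_iInter]; rfl]
    exact isClosed_iInter fun g => isClosed_eq (σ g).continuous continuous_id).completeSpace_coe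
  have h1 : ∀ g, ∀ w ∈ Kᗮ, σ g w ∈ Kᗮ := fun g w hw => (K.mem_orthogonal _).2 fun u hu => by
    rw [hσ.inner_right, (hK u).1 hu]
    exact (K.mem_orthogonal _).1 hw u hu
  let τ : G →* (Kᗮ →L[ℂ] Kᗮ) :=
    { toFun := fun g => ((σ g).comp Kᗮ.subtypeL).codRestrict Kᗮ fun w => h1 g w w.2
      map_one' := by
        ext w
        exact URep.one_apply _
      map_mul' := fun g g' => by
        ext w
        exact URep.mul_apply g g' _ }
  obtain ⟨a, ha, b, hb, rfl⟩ := K.exists_add_mem_mem_orthogonal v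
  obtain ⟨q, hq, h2⟩ := h Kᗮ τ (fun g w => hσ.iso g w) (fun w => Continuous.subtype_mk
    (continuous_iff_continuousAt.2 fun g => hσ.tendsto continuousAt_id tendsto_const_nhds) _)
    (fun w hw => Subtype.ext (inner_self_eq_zero.1 ((K.mem_orthogonal _).1 w.2 w
      ((hK w).2 fun g => congrArg Subtype.val (hw g))))) ⟨b, hb⟩
  have h3 : ∀ g, σ g (a + b) - (a + b) = σ g b - b := fun g => by
    rw [map_add, (hK a).1 ha, add_sub_add_left_eq_sub]
  have h4 : κ * ‖b‖ ≤ δ := h2.trans ((congrArg norm (h3 q)).symm.le.trans (hv q hq))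
  have h5 := norm_sub_le (σ g b) b
  rw [hσ.iso] at h5
  rw [h3]
  nlinarith

/-- positive definite functions -/
structure PD (φ : G → ℂ) : Prop where
  symm : ∀ g, conj (φ g) = φ g⁻¹
  pos : ∀ f : G →₀ ℂ, 0 ≤ (f.sum fun x a => f.sum fun y b => conj a * b * φ (x⁻¹ * y)).re

/-- **NT0**: positive definite functions which are close to one on a Kazhdan set are close to one
everywhere. -/
theorem nt0 [IsTopologicalGroup G] (h : KazT G) : ∃ Q : Set G, IsCompact Q ∧ ∃ δ : ℝ, 0 < δ ∧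
    ∀ φ : G → ℂ, PD φ → ContinuousAt φ 1 → φ 1 = 1 → (∀ g ∈ Q, 1 - δ ≤ (φ g).re) →
      ∀ g, 1 / 2 ≤ (φ g).re := by
  obtain ⟨Q, κ, hQ, hκ, h⟩ := kaz_vec h
  refine ⟨Q, hQ, κ ^ 2 / 8, by positivity, fun φ hφ hc h1 hq g => ?_⟩
  obtain ⟨H, _, _, _, e, he, hd⟩ := exists_kol (fun x y : G => φ (x⁻¹ * y))
    (fun x y => by rw [hφ.symm, mul_inv_rev, inv_inv]) hφ.pos
  obtain ⟨ρ, h2, h3⟩ := exists_rep (fun g x : G => g * x) one_mul mul_assoc hd fun g x y => by
    rw [he, he, mul_inv_rev, mul_assoc, inv_mul_cancel_left]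
  have h4 : ∀ x y, ‖e x - e y‖ ^ 2 = 2 - 2 * (φ (y⁻¹ * x)).re := fun x y => by
    rw [norm_sub_rev, @norm_sub_sq ℂ, ← inner_self_eq_norm_sq (𝕜 := ℂ),
      ← inner_self_eq_norm_sq (𝕜 := ℂ), he, he, he, inv_mul_cancel, inv_mul_cancel, h1]
    simp only [RCLike.re_to_complex, Complex.one_re]
    ring
  have h5 : URep ρ := urep_of_dense h2 hd fun x => by
    simp only [h3]
    rw [tendsto_iff_norm_sub_tendsto_zero]
    have h6 : Tendsto (fun g : G => x⁻¹ * (g * x)) (𝓝 1) (𝓝 1) := by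
      have : Continuous fun g : G => x⁻¹ * (g * x) := by fun_prop
      simpa using this.tendsto 1
    have h7 := ((Complex.continuous_re.tendsto _).comp (hc.tendsto.comp h6)).const_mul 2
      |>.const_sub 2 |>.sqrt
    rw [h1, Complex.one_re, mul_one, sub_self, Real.sqrt_zero] at h7
    refine h7.congr fun g => ?_
    rw [← Real.sqrt_sq (norm_nonneg (e (g * x) - e x)), h4]
    rfl
  have h6 := h H ρ h5 (e 1) (κ / 2) (fun g hg => by
    refine (pow_le_pow_iff_left₀ (norm_nonneg _) (by positivity) two_ne_zero).1 ?_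
    rw [h3, h4, inv_one, one_mul, mul_one]
    linarith [hq g hg]) g
  have h7 := h4 (g * 1) 1
  rw [inv_one, one_mul, ← h3, mul_one] at h7
  have h8 : ‖ρ g (e 1) - e 1‖ ≤ 1 := le_of_mul_le_mul_left (by linarith) hκ
  nlinarith [norm_nonneg (ρ g (e 1) - e 1)]

open Classical in
theorem schur {X W : Type} (T : Finset X) (s : X → W → Prop) {q : ℝ} (h0 : 0 ≤ q) (h1 : q ≤ 1)
    (V : Finset W) (a : X → ℂ) : 0 ≤ (∑ x ∈ T, ∑ y ∈ T, conj (a x) * a y *
      ((∏ w ∈ V, if s x w ↔ s y w then 1 else q : ℝ) : ℂ)).re := by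
  induction V using Finset.induction_on generalizing a with
  | empty =>
    simp only [Finset.prod_empty, Complex.ofReal_one, mul_one]
    rw [← Finset.sum_mul_sum, ← map_sum, Complex.conj_mul', ← Complex.ofReal_pow, Complex.ofReal_re]
    positivity
  | insert w V hw ih =>
    have h2 := add_nonneg (mul_nonneg h0 (ih a)) (mul_nonneg (sub_nonneg.2 h1) (add_nonneg
      (ih fun x => if s x w then a x else 0) (ih fun x => if s x w then 0 else a x)))
    rw [← Complex.add_re, ← Complex.re_ofReal_mul, ← Complex.re_ofReal_mul, ← Complex.add_re] at h2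
    refine h2.trans_eq (congrArg Complex.re ?_)
    simp only [Finset.prod_insert hw, Finset.mul_sum, ← Finset.sum_add_distrib]
    refine Finset.sum_congr rfl fun x _ => Finset.sum_congr rfl fun y _ => ?_
    by_cases k : s x w <;> by_cases k' : s y w <;> simp [k, k'] <;> ring

/-- **Commensurated sets**: a right invariant set which is properly almost invariant on the left
and separates the two ends of a cyclic group. -/
theorem fw [IsTopologicalGroup G] [LocallyCompactSpace G] (K : Subgroup G)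
    (hK : IsOpen (K : Set G)) (S : Set G) (hS : ∀ g, ∀ u ∈ K, g * u ∈ S ↔ g ∈ S)
    (hc : ∀ g, ∀ᶠ x in 𝓝 (1 : G), x * g ∈ S ↔ g ∈ S)
    (hp : ∀ Q : Set G, IsCompact Q → ∃ L : Set G, IsCompact L ∧
      ∀ x ∈ Q, ∀ g, g ∉ L → (x * g ∈ S ↔ g ∈ S)) {b : G} {n₀ : ℕ}
    (h1 : ∀ n, n₀ ≤ n → b ^ n ∈ S) (h2 : ∀ n, n₀ ≤ n → (b ^ n)⁻¹ ∉ S) : ¬ KazT G := by
  classical
  intro hT
  haveI := QuotientGroup.discreteTopology hK
  let s : G → G ⧸ K → Prop := fun x w => x⁻¹ * w.out ∈ S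
  have hs : ∀ x g : G, s x g ↔ x⁻¹ * g ∈ S := fun x g => by
    obtain ⟨u, hu⟩ := QuotientGroup.mk_out_eq_mul K g
    simp only [s, hu, ← mul_assoc, hS _ _ u.2]
  let D : G → G → Set (G ⧸ K) := fun x y => {w | ¬ (s x w ↔ s y w)}
  have a1 : ∀ Q : Set G, IsCompact Q → ∃ V : Set (G ⧸ K), V.Finite ∧ ∀ x ∈ Q, D 1 x ⊆ V := by
    intro Q hQ
    obtain ⟨L, hL, hL'⟩ := hp _ hQ.inv
    refine ⟨_, (hL.image QuotientGroup.continuous_mk).finite_of_discrete, fun x hx w hw => ?_⟩
    obtain ⟨g, rfl⟩ := QuotientGroup.mk_surjective w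
    refine ⟨g, by_contra fun k => hw ?_, rfl⟩
    rw [hs, hs, inv_one, one_mul, hL' x⁻¹ (by simpa using hx) g k]
  have a2 : ∀ x y, D x y = (fun w => x • w) '' D 1 (x⁻¹ * y) := fun x y => by
    ext w
    obtain ⟨g, rfl⟩ := QuotientGroup.mk_surjective w
    have e : ∀ g : G, (g : G ⧸ K) ∈ D 1 (x⁻¹ * y) ↔ ((x * g : G) : G ⧸ K) ∈ D x y := fun g => by
      simp only [D, mem_setOf_eq, hs, inv_one, one_mul, mul_inv_rev, inv_inv, inv_mul_cancel_left,
        mul_assoc]
    constructor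
    · intro k
      exact ⟨(x⁻¹ * g : G), (e _).2 (by rwa [mul_inv_cancel_left]),
        congrArg _ (mul_inv_cancel_left x g)⟩
    · rintro ⟨w, k, e'⟩
      obtain ⟨g', rfl⟩ := QuotientGroup.mk_surjective w
      rw [← e']
      exact (e g').1 k
  have a3 : ∀ x y, (D x y).ncard = (D 1 (x⁻¹ * y)).ncard := fun x y => by
    rw [a2, ncard_image_of_injective _ (MulAction.injective x)]
  have a4 : ∀ x y, (D x y).Finite := fun x y => by
    obtain ⟨V, hV, hV'⟩ := a1 _ (isCompact_singleton (x := x⁻¹ * y))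
    rw [a2]
    exact (hV.subset (hV' _ rfl)).image _
  have a5 : ∀ᶠ x in 𝓝 (1 : G), D 1 x = ∅ := by
    obtain ⟨Q, hQ, hQ'⟩ := exists_compact_mem_nhds (1 : G)
    obtain ⟨V, hV, hV'⟩ := a1 Q hQ
    have h3 : Tendsto (fun x : G => x⁻¹) (𝓝 1) (𝓝 1) := by simpa using continuous_inv.tendsto (1 : G)
    filter_upwards [hQ', (eventually_all_finite hV).2 fun w _ => h3.eventually (hc w.out)]
      with x k k'
    refine eq_empty_of_forall_notMem fun w hw => hw ?_
    simp only [s, inv_one, one_mul, k' w (hV' x k hw)]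
  obtain ⟨Q, hQ, δ, hδ, h⟩ := nt0 hT
  obtain ⟨V, hV, hV'⟩ := a1 Q hQ
  obtain ⟨q, q0, q1, q2⟩ : ∃ q : ℝ, 0 < q ∧ q < 1 ∧ 1 - δ < q ^ V.ncard := by
    have h3 : ∀ᶠ q : ℝ in 𝓝[<] 1, 1 - δ < q ^ V.ncard := nhdsWithin_le_nhds
      ((continuous_pow V.ncard).continuousAt.eventually (lt_mem_nhds (by simpa using hδ)))
    obtain ⟨q, k1, k2⟩ := (h3.and (Ioo_mem_nhdsLT (zero_lt_one' ℝ))).exists
    exact ⟨q, k2.1, k2.2, k1⟩
  have h3 := h (fun x => ((q ^ (D 1 x).ncard : ℝ) : ℂ)) ⟨fun g => ?_, fun f => ?_⟩ ?_ ?_ fun g hg => ?_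
  · obtain ⟨N, hN⟩ := exists_pow_lt_of_lt_one (one_half_pos (α := ℝ)) q1
    have h4 := h3 (b ^ (2 * n₀ + N))
    rw [Complex.ofReal_re] at h4
    refine absurd (h4.trans (pow_le_pow_of_le_one q0.le q1.le ?_)) (not_le.2 hN)
    have h5 : ∀ d : ℕ, b ^ d ∈ K → d = 0 := fun d hd => by_contra fun k => by
      have h6 : n₀ ≤ d * n₀ := Nat.le_mul_of_pos_left _ (Nat.pos_of_ne_zero k)
      have h7 := hS 1 _ (K.pow_mem hd n₀)
      have h8 := hS 1 _ (K.inv_mem (K.pow_mem hd n₀))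
      rw [one_mul, ← pow_mul] at h7 h8
      exact h2 _ h6 (h8.2 (h7.1 (h1 _ h6)))
    have h6 : ∀ i j : ℕ, i ≤ j → ((b ^ (n₀ + i) : G) : G ⧸ K) = (b ^ (n₀ + j) : G) → i = j := by
      intro i j k e
      obtain ⟨d, rfl⟩ := Nat.exists_eq_add_of_le k
      have h7 := QuotientGroup.eq.1 e
      rw [← add_assoc, pow_add b (n₀ + i), inv_mul_cancel_left] at h7
      rw [h5 d h7, add_zero]
    refine (show N = (univ : Set (Fin N)).ncard by simp).le.trans ?_
    refine ncard_le_ncard_of_injOn (fun i : Fin N => ((b ^ (n₀ + i) : G) : G ⧸ K)) (fun i _ => ?_)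
      (fun i _ j _ e => Fin.ext ((le_total i.1 j.1).elim (fun k => h6 _ _ k e)
        fun k => (h6 _ _ k e.symm).symm)) (a4 _ _)
    intro k
    rw [hs, hs, inv_one, one_mul] at k
    refine h2 (n₀ + (N - i)) (Nat.le_add_right _ _) ?_
    have h7 := k.1 (h1 _ (Nat.le_add_right _ _))
    rwa [show 2 * n₀ + N = n₀ + i + (n₀ + (N - i)) by omega, pow_add b (n₀ + i), mul_inv_rev,
      inv_mul_cancel_right] at h7
  · rw [Complex.conj_ofReal, ← mul_one g⁻¹, ← a3]
    congr 3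
    exact Set.ext fun w => not_congr iff_comm
  · have h4 : (⋃ x ∈ f.support, ⋃ y ∈ f.support, D x y).Finite :=
      f.support.finite_toSet.biUnion fun x _ => f.support.finite_toSet.biUnion fun y _ => a4 x y
    refine (schur f.support s q0.le q1.le h4.toFinset f).trans_eq (congrArg Complex.re
      (Finset.sum_congr rfl fun x hx => Finset.sum_congr rfl fun y hy => ?_))
    beta_reduce
    rw [Finset.prod_ite, Finset.prod_const_one, one_mul, Finset.prod_const, ← a3,
      ← ncard_coe_finset]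
    congr 4
    ext w
    rw [Finset.coe_filter, mem_setOf_eq, Finite.mem_toFinset]
    exact ⟨fun k => k.2, fun k => ⟨mem_iUnion₂.2 ⟨x, hx, mem_iUnion₂.2 ⟨y, hy, k⟩⟩, k⟩⟩
  · refine (continuousAt_const (y := (1 : ℂ))).congr (a5.mono fun x k => ?_)
    simp only [k, ncard_empty, pow_zero, Complex.ofReal_one]
  · simp only [a5.self_of_nhds, ncard_empty, pow_zero, Complex.ofReal_one]
  · rw [Complex.ofReal_re]
    exact q2.le.trans (pow_le_pow_of_le_one q0.le q1.le (ncard_le_ncard (hV' g hg) hV))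

end Vale.Agent.P092NN
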